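import Vale.Agent.P047.Main

namespace Vale.Agent.Results.P047.LinearBound

open Vale.Agent.P047

lemma exp_split {x : ℝ} {N : ℕ} {a b : ℝ} (ha : 0 ≤ a) (ha1 : a < 1) (hx : x ≤ N + a)
    (hb : 2.7182818286 ^ N * (1 / (1 - a)) ≤ b) : Real.exp x ≤ b := by
  have h1 : Real.exp x ≤ Real.exp (N + a) := Real.exp_le_exp.2 hx
  have h2 : Real.exp (N + a) = Real.exp 1 ^ N * Real.exp a := by
    rw [Real.exp_add, ← Real.exp_nat_mul, mul_one]
  have h3 : Real.exp 1 ^ N ≤ 2.7182818286 ^ N :=
    pow_le_pow_left₀ (Real.exp_pos 1).le Real.exp_one_lt_d9.le N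
  have h4 : Real.exp a ≤ 1 / (1 - a) := Real.exp_bound_div_one_sub_of_interval ha ha1
  calc Real.exp x ≤ Real.exp 1 ^ N * Real.exp a := by rw [← h2]; exact h1
    _ ≤ 2.7182818286 ^ N * (1 / (1 - a)) :=
        mul_le_mul h3 h4 (Real.exp_pos a).le (by positivity)
    _ ≤ b := hb

/-- Every Boolean function `f` of degree at most `d ≥ 2` satisfies
`∑ f^({i}) ≤ d (1 - 16 / (π² (1 + exp(π / cos²(π/(2d))))))`; in particular the sum is at most
`0.98 d` for `d ≥ 3` and at most `0.94 d` for `d ≥ 10`. -/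
theorem result (n d : ℕ) (hd : 2 ≤ d) (f : (Fin n → Bool) → ℝ) (hb : ∀ x, f x = 1 ∨ f x = -1)
    (hdeg : ∀ S : Finset (Fin n), d < S.card → hat f S = 0) :
    (∑ i, hat f {i} ≤ d * (1 - 16 / (Real.pi ^ 2 *
      (Real.exp (Real.pi / Real.cos (Real.pi / (2 * d)) ^ 2) + 1)))) ∧
    (3 ≤ d → ∑ i, hat f {i} ≤ 0.98 * d) ∧ (10 ≤ d → ∑ i, hat f {i} ≤ 0.94 * d) := by
  have hD : Deg n d f := deg_of_hat n d f fun S hS => hdeg S (by exact_mod_cast hS)
  have hpi := Real.pi_pos
  have hpi4 := Real.pi_lt_d4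
  have hpi2 : Real.pi ^ 2 ≤ 9.86966 := by nlinarith
  have hd' : (2 : ℝ) ≤ d := by exact_mod_cast hd
  rw [← dE_zero]
  have hx0 : 0 < Real.pi / (2 * d) := by positivity
  refine ⟨?_, ?_, ?_⟩
  · have h1 : Real.sin (Real.pi / (2 * d)) ^ 2 < 1 := by
      have hc : 0 < Real.cos (Real.pi / (2 * d)) := by
        apply Real.cos_pos_of_mem_Ioo
        constructor
        · linarith
        · apply div_lt_div_of_pos_left hpi (by norm_num) (by linarith)
      have := Real.sin_sq_add_cos_sq (Real.pi / (2 * d))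
      nlinarith
    have h2 := general hd hb hD h1 le_rfl le_rfl
    have h3 : 1 - Real.sin (Real.pi / (2 * d)) ^ 2 = Real.cos (Real.pi / (2 * d)) ^ 2 := by
      have := Real.sin_sq_add_cos_sq (Real.pi / (2 * d))
      linarith
    rw [h3] at h2
    exact h2
  · intro h3
    have hd3 : (3 : ℝ) ≤ d := by exact_mod_cast h3
    have h4 : Real.sin (Real.pi / (2 * d)) ≤ 1 / 2 := by
      rw [← Real.sin_pi_div_six]
      apply Real.sin_le_sin_of_le_of_le_pi_div_two
      · linarith
      · linarith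
      · exact div_le_div_of_nonneg_left hpi.le (by norm_num) (by linarith)
    have h5 : 0 ≤ Real.sin (Real.pi / (2 * d)) := by
      apply Real.sin_nonneg_of_nonneg_of_le_pi hx0.le
      rw [div_le_iff₀ (by positivity)]
      nlinarith
    have h6 : Real.exp (Real.pi / (1 - 1 / 4)) ≤ 68 := by
      apply exp_split (N := 4) (a := 0.1888) (by norm_num) (by norm_num)
      · push_cast
        rw [div_le_iff₀ (by norm_num)]
        linarith
      · norm_num
    have h7 := general hd hb hD (σ := 1 / 4) (by norm_num) (by nlinarith) h6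
    have h8 : 0.02 ≤ 16 / (Real.pi ^ 2 * (68 + 1)) := by
      rw [le_div_iff₀ (by positivity)]
      linarith
    nlinarith
  · intro h10
    have hd10 : (10 : ℝ) ≤ d := by exact_mod_cast h10
    have h4 : Real.sin (Real.pi / (2 * d)) ≤ Real.pi / 20 := by
      refine (Real.sin_le hx0.le).trans ?_
      exact div_le_div_of_nonneg_left hpi.le (by norm_num) (by linarith)
    have h5 : 0 ≤ Real.sin (Real.pi / (2 * d)) := by
      apply Real.sin_nonneg_of_nonneg_of_le_pi hx0.le
      rw [div_le_iff₀ (by positivity)]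
      nlinarith
    have h6 : Real.exp (Real.pi / (1 - 0.025)) ≤ 26 := by
      apply exp_split (N := 3) (a := 0.2222) (by norm_num) (by norm_num)
      · push_cast
        rw [div_le_iff₀ (by norm_num)]
        linarith
      · norm_num
    have h7 := general hd hb hD (σ := 0.025) (by norm_num) (by nlinarith) h6
    have h8 : 0.06 ≤ 16 / (Real.pi ^ 2 * (26 + 1)) := by
      rw [le_div_iff₀ (by positivity)]
      linarith
    nlinarith

end Vale.Agent.Results.P047.LinearBound
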